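import Vale.Agent.N029.Witt

/-!
# P029: the growth of the dimensions
-/

set_option linter.all false

noncomputable section

namespace Vale.Agent.N029

/-- The Perrin numbers. -/
def per : ℕ → ℤ
  | 0 => 3
  | 1 => 0
  | 2 => 2
  | n + 3 => per (n + 1) + per n

theorem exists_rho : ∃ ρ : ℝ, 13 / 10 < ρ ∧ ρ < 4 / 3 ∧ ρ ^ 3 = ρ + 1 := by
  have hc : ContinuousOn (fun t : ℝ => t ^ 3 - t - 1) (Set.Icc (13 / 10) (4 / 3)) := by fun_prop
  have := intermediate_value_Ioo (show (13 / 10 : ℝ) ≤ 4 / 3 by norm_num) hc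
    (show (0 : ℝ) ∈ Set.Ioo _ _ by constructor <;> norm_num)
  obtain ⟨ρ, ⟨h1, h2⟩, h3⟩ := this
  exact ⟨ρ, h1, h2, by simp only at h3; linarith⟩

theorem per_close {ρ : ℝ} (h1 : 13 / 10 < ρ) (h3 : ρ ^ 3 = ρ + 1) (n : ℕ) :
    |(per n : ℝ) - ρ ^ n| ≤ 2 := by
  set e : ℕ → ℝ := fun n => (per n : ℝ) - ρ ^ n with he
  have hrec : ∀ n, e (n + 3) = e (n + 1) + e n := fun n => by
    simp only [he, per]
    push_cast
    linear_combination (-ρ ^ n) * h3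
  have hu : ∀ n, e (n + 2) + ρ * e (n + 1) + (ρ ^ 2 - 1) * e n = 0 := by
    intro n
    induction n with
    | zero => simp only [he, per]; push_cast; ring
    | succ n ih =>
      rw [show n + 1 + 2 = n + 3 from rfl, hrec, show n + 1 + 1 = n + 2 from rfl]
      linear_combination ρ * ih - e n * h3
  have hs0 : 0 ≤ ρ ^ 2 - 1 := by nlinarith
  have hs1 : ρ ^ 2 - 1 ≤ 1 := by nlinarith
  have hd : 0 < 3 * ρ ^ 2 - 4 := by nlinarith
  have hQ : ∀ n, e (n + 1) ^ 2 + ρ * e (n + 1) * e n + (ρ ^ 2 - 1) * e n ^ 2 ≤ 3 * ρ ^ 2 - 4 := by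
    intro n
    induction n with
    | zero => simp only [he, per]; push_cast; apply le_of_eq; ring
    | succ n ih =>
      have : e (n + 1 + 1) ^ 2 + ρ * e (n + 1 + 1) * e (n + 1) + (ρ ^ 2 - 1) * e (n + 1) ^ 2 =
          (ρ ^ 2 - 1) * (e (n + 1) ^ 2 + ρ * e (n + 1) * e n + (ρ ^ 2 - 1) * e n ^ 2) := by
        rw [show n + 1 + 1 = n + 2 from rfl]
        linear_combination (e (n + 2) - (ρ ^ 2 - 1) * e n) * hu n
      rw [this]
      nlinarith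
  have h4 : (3 * ρ ^ 2 - 4) * e n ^ 2 ≤ (3 * ρ ^ 2 - 4) * 2 ^ 2 := by
    nlinarith [hQ n, sq_nonneg (2 * e (n + 1) + ρ * e n)]
  exact abs_le_of_sq_le_sq' (le_of_mul_le_mul_left h4 hd) (by norm_num) |> abs_le.2

theorem per_sum (n : ℕ) (hn : 0 < n) :
    ∑ d ∈ n.divisors, (d : ℝ) * dm wF d = per n - 1 - (-1) ^ n := by
  have := divisor_sum per rfl rfl rfl (fun _ => rfl) n hn
  exact_mod_cast this

theorem growth {ρ : ℝ} (h1 : 13 / 10 < ρ) (h2 : ρ < 4 / 3) (h3 : ρ ^ 3 = ρ + 1) (n : ℕ) :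
    |(n : ℝ) * dm wF n - ρ ^ n| ≤ 18 * √ρ ^ n := by
  have hρ : 1 ≤ ρ := by linarith
  have hs : 1 ≤ √ρ ^ n := one_le_pow₀ (Real.one_le_sqrt.2 hρ)
  rcases Nat.eq_zero_or_pos n with rfl | hn
  · norm_num
  have hsign : ∀ d : ℕ, (0 : ℝ) ≤ 1 + (-1) ^ d ∧ (1 : ℝ) + (-1) ^ d ≤ 2 := fun d => by
    rcases neg_one_pow_eq_or ℝ d with h | h <;> rw [h] <;> norm_num
  have hup : ∀ d : ℕ, 0 < d → (d : ℝ) * dm wF d ≤ 3 * ρ ^ d := fun d hd => by
    have a1 : (d : ℝ) * dm wF d ≤ ∑ d ∈ d.divisors, (d : ℝ) * dm wF d :=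
      Finset.single_le_sum (f := fun d : ℕ => (d : ℝ) * dm wF d) (fun _ _ => by positivity)
        (Nat.mem_divisors_self d hd.ne')
    rw [per_sum d hd] at a1
    have a2 := (abs_le.1 (per_close h1 h3 d)).2
    have a3 : 1 ≤ ρ ^ d := one_le_pow₀ hρ
    linarith [(hsign d).1]
  have hsplit := per_sum n hn
  rw [← Nat.insert_self_properDivisors hn.ne', Finset.sum_insert (Nat.self_notMem_properDivisors)]
    at hsplit
  have hR0 : 0 ≤ ∑ d ∈ n.properDivisors, (d : ℝ) * dm wF d :=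
    Finset.sum_nonneg fun _ _ => by positivity
  have hR1 : ∑ d ∈ n.properDivisors, (d : ℝ) * dm wF d ≤
      ∑ d ∈ Finset.range (n / 2 + 1), 3 * ρ ^ d := by
    refine (Finset.sum_le_sum fun d hd => hup d (Nat.pos_of_mem_properDivisors hd)).trans
      (Finset.sum_le_sum_of_subset_of_nonneg (fun d hd => ?_) fun _ _ _ => by positivity)
    obtain ⟨⟨c, hc⟩, hlt⟩ := Nat.mem_properDivisors.1 hd
    have : 2 ≤ c := by
      rcases c with _ | _ | c <;> omega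
    have : d * 2 ≤ n := hc ▸ Nat.mul_le_mul_left d this
    rw [Finset.mem_range]
    omega
  have hg : (∑ d ∈ Finset.range (n / 2 + 1), ρ ^ d) * (ρ - 1) = ρ ^ (n / 2 + 1) - 1 :=
    geom_sum_mul ρ _
  have hh : ρ ^ (n / 2) ≤ √ρ ^ n := by
    calc ρ ^ (n / 2) = √ρ ^ (2 * (n / 2)) := by rw [pow_mul, Real.sq_sqrt (by linarith)]
      _ ≤ √ρ ^ n := pow_le_pow_right₀ (Real.one_le_sqrt.2 hρ) (by omega)
  have hS0 : 0 ≤ ∑ d ∈ Finset.range (n / 2 + 1), ρ ^ d :=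
    Finset.sum_nonneg fun _ _ => by positivity
  have hp : 0 ≤ ρ ^ (n / 2) := by positivity
  have hS : ∑ d ∈ Finset.range (n / 2 + 1), ρ ^ d ≤ 40 / 9 * √ρ ^ n := by
    rw [pow_succ] at hg
    nlinarith
  rw [← Finset.mul_sum] at hR1
  have a2 := abs_le.1 (per_close h1 h3 n)
  rw [abs_le]
  constructor <;> linarith [(hsign n).1, (hsign n).2]

end Vale.Agent.N029
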