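import Vale.Agent.N029.Elim

/-!
# P029: commuting homogeneous elements of a free Lie algebra are proportional
-/

set_option linter.all false

noncomputable section

attribute [local instance 100] LieRing.ofAssociativeRing

namespace Vale.Agent.N029

open Vale.Agent.P029

variable {X : Type}

theorem word_step {x : X} {f : MonoidAlgebra ℚ (FreeMonoid X)}
    (h : MonoidAlgebra.single (FreeMonoid.of x) 1 * f = f * MonoidAlgebra.single (FreeMonoid.of x) 1)
    {y : X} {v : List X} (hv : f.coeff (FreeMonoid.ofList (y :: v)) ≠ 0) :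
    y = x ∧ f.coeff (FreeMonoid.ofList (v ++ [x])) ≠ 0 := by
  have e1 := MonoidAlgebra.coeff_mul_single_mul f 1 (FreeMonoid.of x) (FreeMonoid.ofList (y :: v))
  rw [← h, mul_one] at e1
  have hy : y = x := by
    by_contra hy
    rw [MonoidAlgebra.coeff_single_mul_of_forall_mul_ne] at e1
    · exact hv e1.symm
    · intro d e
      have := congrArg FreeMonoid.toList e
      simp only [FreeMonoid.toList_mul, FreeMonoid.toList_of, FreeMonoid.toList_ofList,
        List.cons_append, List.nil_append, List.cons.injEq] at this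
      exact hy this.1.symm
  subst hy
  refine ⟨rfl, ?_⟩
  have e2 := MonoidAlgebra.coeff_single_mul_mul f 1 (FreeMonoid.of y) (FreeMonoid.ofList (v ++ [y]))
  rw [one_mul] at e2
  rw [← e2]
  exact fun e => hv (e1.symm.trans e)

theorem word_all {x : X} {f : MonoidAlgebra ℚ (FreeMonoid X)}
    (h : MonoidAlgebra.single (FreeMonoid.of x) 1 * f = f * MonoidAlgebra.single (FreeMonoid.of x) 1) :
    ∀ a b : List X, f.coeff (FreeMonoid.ofList (a ++ b)) ≠ 0 → ∀ y ∈ a, y = x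
  | [], _, _ => by simp
  | z :: a, b, hv => by
    obtain ⟨h1, h2⟩ := word_step h (y := z) (v := a ++ b) hv
    rw [List.append_assoc] at h2
    intro y hy
    rcases List.mem_cons.1 hy with rfl | hy
    · exact h1
    · exact word_all h a _ h2 y hy

open Classical in
/-- The endomorphism killing all letters but `x`. -/
def pr (x : X) : FreeAlgebra ℚ X →ₐ[ℚ] FreeAlgebra ℚ X :=
  FreeAlgebra.lift ℚ fun y => if y = x then FreeAlgebra.ι ℚ x else 0

theorem pr_self (x : X) : pr x (FreeAlgebra.ι ℚ x) = FreeAlgebra.ι ℚ x := by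
  rw [pr, FreeAlgebra.lift_ι_apply, if_pos rfl]

theorem pr_ne {x y : X} (h : y ≠ x) : pr x (FreeAlgebra.ι ℚ y) = 0 := by
  rw [pr, FreeAlgebra.lift_ι_apply, if_neg h]

theorem pr_fix {x : X} {f : FreeAlgebra ℚ X}
    (h : FreeAlgebra.ι ℚ x * f = f * FreeAlgebra.ι ℚ x) : pr x f = f := by
  set E := FreeAlgebra.equivMonoidAlgebraFreeMonoid (R := ℚ) (X := X) with hE
  have hι : ∀ y, E (FreeAlgebra.ι ℚ y) = MonoidAlgebra.single (FreeMonoid.of y) 1 := fun y => by
    simp [hE, FreeAlgebra.equivMonoidAlgebraFreeMonoid]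
  have h2 := congrArg E h
  rw [map_mul, map_mul, hι] at h2
  have hw : ∀ l : List X, (∀ y ∈ l, y = x) →
      pr x (E.symm (MonoidAlgebra.single (FreeMonoid.ofList l) 1)) =
        E.symm (MonoidAlgebra.single (FreeMonoid.ofList l) 1) := by
    intro l
    induction l with
    | nil =>
      intro _
      rw [FreeMonoid.ofList_nil, ← MonoidAlgebra.one_def, map_one, map_one]
    | cons y l ih =>
      intro hl
      have : MonoidAlgebra.single (FreeMonoid.ofList (y :: l)) (1 : ℚ) =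
          E (FreeAlgebra.ι ℚ y) * MonoidAlgebra.single (FreeMonoid.ofList l) 1 := by
        rw [hι, MonoidAlgebra.single_mul_single, one_mul, FreeMonoid.ofList_cons]
      rw [this, map_mul, map_mul, E.symm_apply_apply, ih fun z hz => hl z (List.mem_cons_of_mem _ hz),
        hl y List.mem_cons_self, pr_self]
  have hf : f = ∑ u ∈ (E f).coeff.support,
      (E f).coeff u • E.symm (MonoidAlgebra.single u 1) := by
    conv_lhs => rw [← E.symm_apply_apply f, ← MonoidAlgebra.sum_coeff_single (E f)]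
    rw [Finsupp.sum, map_sum]
    refine Finset.sum_congr rfl fun u _ => ?_
    rw [← map_smul, MonoidAlgebra.smul_single, smul_eq_mul, mul_one]
  rw [hf, map_sum]
  refine Finset.sum_congr rfl fun u hu => ?_
  rw [map_smul]
  congr 1
  exact hw (FreeMonoid.toList u) (word_all h2 _ [] (by
    rw [List.append_nil]
    exact Finsupp.mem_support_iff.1 hu))

theorem pr_lie (x : X) (z : FreeLieAlgebra ℚ X) :
    ∃ c : ℚ, pr x (toFree ℚ X z) = c • FreeAlgebra.ι ℚ x := by
  induction z using Low.free_induction with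
  | hof y =>
    rw [toFree_of]
    by_cases h : y = x
    · exact ⟨1, by rw [h, pr_self, one_smul]⟩
    · exact ⟨0, by rw [pr_ne h, zero_smul]⟩
  | h0 => exact ⟨0, by simp⟩
  | hadd a b ha hb =>
    obtain ⟨c, hc⟩ := ha
    obtain ⟨d, hd⟩ := hb
    exact ⟨c + d, by rw [map_add, map_add, hc, hd, add_smul]⟩
  | hsmul r a ha =>
    obtain ⟨c, hc⟩ := ha
    exact ⟨r * c, by rw [map_smul, map_smul, hc, smul_smul]⟩
  | hlie a b ha hb =>
    obtain ⟨c, hc⟩ := ha
    obtain ⟨d, hd⟩ := hb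
    refine ⟨0, ?_⟩
    rw [LieHom.map_lie, LieRing.of_associative_ring_bracket, map_sub, map_mul, map_mul, hc, hd,
      smul_mul_smul_comm, smul_mul_smul_comm, mul_comm d, sub_self, zero_smul]

theorem pr_wt (w : X → ℕ) (x : X) {n : ℕ} {z : FreeLieAlgebra ℚ X} (hz : z ∈ wtPart ℚ w n) :
    ∃ c : ℚ, pr x (toFree ℚ X z) = c • FreeAlgebra.ι ℚ x ∧ (w x ≠ n → c = 0) := by
  refine Low.wt_induction (P := fun z => ∃ c : ℚ, pr x (toFree ℚ X z) = c • FreeAlgebra.ι ℚ x ∧
    (w x ≠ n → c = 0)) ?_ ⟨0, by simp, fun _ => rfl⟩ ?_ ?_ hz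
  · intro t ht
    cases t with
    | leaf y =>
      rw [Tr.eval_leaf, toFree_of]
      by_cases h : y = x
      · exact ⟨1, by rw [h, pr_self, one_smul], fun e => absurd (h ▸ ht) e⟩
      · exact ⟨0, by rw [pr_ne h, zero_smul], fun _ => rfl⟩
    | node s t =>
      obtain ⟨c, hc⟩ := pr_lie x (s.eval (FreeLieAlgebra.of ℚ))
      obtain ⟨d, hd⟩ := pr_lie x (t.eval (FreeLieAlgebra.of ℚ))
      refine ⟨0, ?_, fun _ => rfl⟩
      rw [Tr.eval_node, LieHom.map_lie, LieRing.of_associative_ring_bracket, map_sub, map_mul,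
        map_mul, hc, hd, smul_mul_smul_comm, smul_mul_smul_comm, mul_comm d, sub_self, zero_smul]
  · rintro a b ⟨c, hc, h1⟩ ⟨d, hd, h2⟩
    exact ⟨c + d, by rw [map_add, map_add, hc, hd, add_smul], fun e => by
      rw [h1 e, h2 e, add_zero]⟩
  · rintro r a ⟨c, hc, h1⟩
    exact ⟨r * c, by rw [map_smul, map_smul, hc, smul_smul], fun e => by rw [h1 e, mul_zero]⟩

/-- The centralizer of a letter. -/
theorem comm_letter {w : X → ℕ} (h : Adm w) (x : X) {n : ℕ} {b : FreeLieAlgebra ℚ X}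
    (hb : b ∈ wtPart ℚ w n) (e : ⁅FreeLieAlgebra.of ℚ x, b⁆ = 0) :
    ∃ c : ℚ, b = c • FreeLieAlgebra.of ℚ x := by
  have e2 := congrArg (toFree ℚ X) e
  rw [LieHom.map_lie, LieRing.of_associative_ring_bracket, toFree_of, map_zero, sub_eq_zero] at e2
  obtain ⟨c, hc, h1⟩ := pr_wt w x hb
  rw [pr_fix e2] at hc
  refine ⟨c, sub_eq_zero.1 (toFree_injOn w h.pos h.fin (n := n) (sub_mem hb ?_) ?_)⟩
  · by_cases hx : w x = n
    · exact Submodule.smul_mem _ _ (hx ▸ of_mem w x)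
    · rw [h1 hx, zero_smul]
      exact zero_mem _
  · rw [map_sub, map_smul, toFree_of, hc, sub_self]

theorem lowest {w : X → ℕ} (h : Adm w) {m : ℕ} (hw : ∀ x, m ≤ w x) {a : FreeLieAlgebra ℚ X}
    (ha : a ∈ wtPart ℚ w m) (h0 : a ≠ 0) :
    ∃ (x : X) (c : ℚ) (r : FreeLieAlgebra ℚ X), c ≠ 0 ∧ w x = m ∧
      a = c • FreeLieAlgebra.of ℚ x + r ∧ ∀ φ : FreeLieAlgebra ℚ X →ₗ⁅ℚ⁆ FreeLieAlgebra ℚ X,
        (∀ y, y ≠ x → φ (FreeLieAlgebra.of ℚ y) = FreeLieAlgebra.of ℚ y) → φ r = r := by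
  classical
  have h1 : wtPart ℚ w m ≤ Submodule.span ℚ (FreeLieAlgebra.of ℚ '' {x | w x = m}) := by
    refine Submodule.span_mono ?_
    rintro _ ⟨t, ht, rfl⟩
    cases t with
    | leaf y => exact ⟨y, ht, rfl⟩
    | node s t =>
      have a1 := LieBasis.wt_le hw s
      have a2 := LieBasis.wt_le (j := 1) h.pos t
      rw [Tr.wt_node] at ht
      omega
  obtain ⟨l, hl, rfl⟩ := (Finsupp.mem_span_image_iff_linearCombination ℚ).1 (h1 ha)
  have hne : l.support.Nonempty := by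
    rw [Finsupp.support_nonempty_iff]
    rintro rfl
    exact h0 (map_zero _)
  obtain ⟨x, hx⟩ := hne
  refine ⟨x, l x, ∑ y ∈ l.support.erase x, l y • FreeLieAlgebra.of ℚ y,
    Finsupp.mem_support_iff.1 hx, (Finsupp.mem_supported ℚ l).1 hl hx, ?_, fun φ hφ => ?_⟩
  · rw [Finsupp.linearCombination_apply, Finsupp.sum,
      Finset.add_sum_erase _ (fun y => l y • FreeLieAlgebra.of ℚ y) hx]
  · rw [map_sum]
    refine Finset.sum_congr rfl fun y hy => ?_
    rw [map_smul, hφ y (Finset.ne_of_mem_erase hy)]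

theorem comm_base {w : X → ℕ} (h : Adm w) {m n : ℕ} (hw : ∀ x, m ≤ w x)
    {a b : FreeLieAlgebra ℚ X} (ha : a ∈ wtPart ℚ w m) (hb : b ∈ wtPart ℚ w n) (h0 : a ≠ 0)
    (e : ⁅a, b⁆ = 0) : ∃ c : ℚ, b = c • a := by
  classical
  obtain ⟨x, c, r, hc, hx, har, hr⟩ := lowest h hw ha h0
  let θ : FreeLieAlgebra ℚ X →ₗ⁅ℚ⁆ FreeLieAlgebra ℚ X := FreeLieAlgebra.lift ℚ fun y =>
    if y = x then c⁻¹ • (FreeLieAlgebra.of ℚ x - r) else FreeLieAlgebra.of ℚ y
  let η : FreeLieAlgebra ℚ X →ₗ⁅ℚ⁆ FreeLieAlgebra ℚ X := FreeLieAlgebra.lift ℚ fun y =>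
    if y = x then a else FreeLieAlgebra.of ℚ y
  have θ1 : θ (FreeLieAlgebra.of ℚ x) = c⁻¹ • (FreeLieAlgebra.of ℚ x - r) := by
    simp only [θ, FreeLieAlgebra.lift_of_apply, if_pos]
  have θ2 : ∀ y, y ≠ x → θ (FreeLieAlgebra.of ℚ y) = FreeLieAlgebra.of ℚ y := fun y hy => by
    simp only [θ, FreeLieAlgebra.lift_of_apply, if_neg hy]
  have η1 : η (FreeLieAlgebra.of ℚ x) = a := by
    simp only [η, FreeLieAlgebra.lift_of_apply, if_pos]
  have η2 : ∀ y, y ≠ x → η (FreeLieAlgebra.of ℚ y) = FreeLieAlgebra.of ℚ y := fun y hy => by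
    simp only [η, FreeLieAlgebra.lift_of_apply, if_neg hy]
  have hθa : θ a = FreeLieAlgebra.of ℚ x := by
    rw [har, map_add, map_smul, θ1, hr θ θ2, smul_smul, mul_inv_cancel₀ hc, one_smul,
      sub_add_cancel]
  have hid : η.comp θ = LieHom.id := by
    apply FreeLieAlgebra.hom_ext
    intro y
    rw [LieHom.comp_apply, LieHom.id_apply]
    by_cases hy : y = x
    · rw [hy, θ1, map_smul, map_sub, η1, hr η η2, har, add_sub_cancel_right, smul_smul,
        inv_mul_cancel₀ hc, one_smul]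
    · rw [θ2 y hy, η2 y hy]
  have hθb : θ b ∈ wtPart ℚ w n := by
    refine hom_mem θ (fun y => ?_) hb
    by_cases hy : y = x
    · have hx' : FreeLieAlgebra.of ℚ x ∈ wtPart ℚ w m := hx ▸ of_mem w x
      have : r = a - c • FreeLieAlgebra.of ℚ x := by rw [har, add_sub_cancel_left]
      rw [hy, θ1, hx, this]
      exact Submodule.smul_mem _ _ (sub_mem hx' (sub_mem ha (Submodule.smul_mem _ _ hx')))
    · rw [θ2 y hy]
      exact of_mem w y
  obtain ⟨d, hd⟩ := comm_letter h x hθb (by rw [← hθa, ← LieHom.map_lie, e, map_zero])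
  refine ⟨d, ?_⟩
  have := DFunLike.congr_fun hid b
  rw [LieHom.comp_apply, LieHom.id_apply, hd, map_smul, η1] at this
  exact this.symm

theorem comm_le {m n : ℕ} (hmn : m ≤ n) (X : Type) (w : X → ℕ) (h : Adm w) :
    ∀ a b : FreeLieAlgebra ℚ X, a ∈ wtPart ℚ w m → b ∈ wtPart ℚ w n → a ≠ 0 → ⁅a, b⁆ = 0 →
      ∃ c : ℚ, b = c • a := by
  refine elim_ind m (fun X w => ∀ a b : FreeLieAlgebra ℚ X, a ∈ wtPart ℚ w m →
    b ∈ wtPart ℚ w n → a ≠ 0 → ⁅a, b⁆ = 0 → ∃ c : ℚ, b = c • a) ?_ ?_ X w h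
  · exact fun X w h hw a b ha hb h0 e => comm_base h hw ha hb h0 e
  · intro X w x h hx ih a b ha hb h0 e
    obtain ⟨c, a', ha', rfl, hc⟩ := decomp w x ha
    obtain ⟨d, b', hb', rfl, hd⟩ := decomp w x hb
    rw [hc (by omega), zero_smul, zero_add] at h0 e ⊢
    rw [hd (by omega), zero_smul, zero_add] at e ⊢
    have e2 := (Ph_inj h x (c := 0) (Low.wt_lie ha' hb') (by
      rw [zero_smul, zero_add, LieHom.map_lie, e])).2
    obtain ⟨t, ht⟩ := ih a' b' ha' hb' (fun e => h0 (by rw [e, map_zero])) e2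
    exact ⟨t, by rw [ht, map_smul]⟩

/-- Commuting homogeneous elements are proportional. -/
theorem comm_hom {w : X → ℕ} (h : Adm w) {m n : ℕ} {a b : FreeLieAlgebra ℚ X}
    (ha : a ∈ wtPart ℚ w m) (hb : b ∈ wtPart ℚ w n) (h0 : a ≠ 0) (e : ⁅a, b⁆ = 0) :
    ∃ c : ℚ, b = c • a := by
  rcases le_total m n with hmn | hmn
  · exact comm_le hmn X w h a b ha hb h0 e
  · by_cases hb0 : b = 0
    · exact ⟨0, by rw [hb0, zero_smul]⟩
    obtain ⟨c, hc⟩ := comm_le hmn X w h b a hb ha hb0 (by rw [← lie_skew, e, neg_zero])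
    have hc0 : c ≠ 0 := fun e => h0 (by rw [hc, e, zero_smul])
    exact ⟨c⁻¹, by rw [hc, smul_smul, inv_mul_cancel₀ hc0, one_smul]⟩

end Vale.Agent.N029
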