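import Vale.Agent.P029.Bdl.B1

/-!
# P029: elimination of one letter in a free Lie algebra with weights
-/

set_option linter.all false

noncomputable section

attribute [local instance 100] LieRing.ofAssociativeRing

namespace Vale.Agent.N029

open Vale.Agent.P029

/-- The letters after elimination of `a`. -/
abbrev Xa {X : Type} (a : X) : Type := {b : X // b ≠ a} × ℕ

/-- Their weights. -/
def wa {X : Type} (w : X → ℕ) (a : X) : Xa a → ℕ := fun q => w (q.1 : X) + q.2 * w a

/-- The elimination homomorphism. -/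
def Ph {X : Type} (a : X) : FreeLieAlgebra ℚ (Xa a) →ₗ⁅ℚ⁆ FreeLieAlgebra ℚ X :=
  FreeLieAlgebra.lift ℚ fun q => adIter (FreeLieAlgebra.of ℚ a) (FreeLieAlgebra.of ℚ (q.1 : X)) q.2

variable {X : Type}

theorem of_mem (w : X → ℕ) (x : X) : FreeLieAlgebra.of ℚ x ∈ wtPart ℚ w (w x) :=
  Submodule.subset_span ⟨Tr.leaf x, rfl, rfl⟩

theorem eval_mem (w : X → ℕ) (t : Tr X) : t.eval (FreeLieAlgebra.of ℚ) ∈ wtPart ℚ w (t.wt w) :=
  Submodule.subset_span ⟨t, rfl, rfl⟩

/-- A homomorphism that preserves the weights of the letters preserves all weights. -/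
theorem hom_mem {Y : Type} {w : X → ℕ} {v : Y → ℕ}
    (φ : FreeLieAlgebra ℚ X →ₗ⁅ℚ⁆ FreeLieAlgebra ℚ Y)
    (h : ∀ x, φ (FreeLieAlgebra.of ℚ x) ∈ wtPart ℚ v (w x)) {n : ℕ} {z : FreeLieAlgebra ℚ X}
    (hz : z ∈ wtPart ℚ w n) : φ z ∈ wtPart ℚ v n := by
  have key : ∀ t : Tr X, φ (t.eval (FreeLieAlgebra.of ℚ)) ∈ wtPart ℚ v (t.wt w) := by
    intro t
    induction t with
    | leaf x => exact h x
    | node s t hs ht =>
      rw [Tr.eval_node, Tr.wt_node, LieHom.map_lie]
      exact Low.wt_lie hs ht
  refine Low.wt_induction (P := fun z => φ z ∈ wtPart ℚ v n) ?_ ?_ ?_ ?_ hz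
  · intro t ht; rw [← ht]; exact key t
  · rw [map_zero]; exact zero_mem _
  · intro a b ha hb; rw [map_add]; exact add_mem ha hb
  · intro c a ha; rw [map_smul]; exact Submodule.smul_mem _ _ ha

theorem Ph_of (a : X) (q : Xa a) : Ph a (FreeLieAlgebra.of ℚ q) =
    adIter (FreeLieAlgebra.of ℚ a) (FreeLieAlgebra.of ℚ (q.1 : X)) q.2 :=
  FreeLieAlgebra.lift_of_apply _ _

theorem Ph_eval (a : X) (t : Tr (Xa a)) : Ph a (t.eval (FreeLieAlgebra.of ℚ)) =
    t.eval fun q => adIter (FreeLieAlgebra.of ℚ a) (FreeLieAlgebra.of ℚ (q.1 : X)) q.2 := by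
  rw [LieBasis.eval_lieHom]
  simp only [Ph_of]

theorem Ph_mem (w : X → ℕ) (a : X) {n : ℕ} {z : FreeLieAlgebra ℚ (Xa a)}
    (hz : z ∈ wtPart ℚ (wa w a) n) : Ph a z ∈ wtPart ℚ w n := by
  refine hom_mem (Ph a) (fun q => ?_) hz
  rw [Ph_of, ← LieBasis.eval_adT (FreeLieAlgebra.of ℚ) a (q.1 : X) q.2]
  have := eval_mem w (LieBasis.adT a (q.1 : X) q.2)
  rwa [LieBasis.wt_adT] at this

theorem decomp (w : X → ℕ) (a : X) {n : ℕ} {u : FreeLieAlgebra ℚ X} (hu : u ∈ wtPart ℚ w n) :
    ∃ (c : ℚ) (z : FreeLieAlgebra ℚ (Xa a)), z ∈ wtPart ℚ (wa w a) n ∧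
      u = c • FreeLieAlgebra.of ℚ a + Ph a z ∧ (w a ≠ n → c = 0) := by
  refine Low.wt_induction (P := fun u => ∃ (c : ℚ) (z : FreeLieAlgebra ℚ (Xa a)),
    z ∈ wtPart ℚ (wa w a) n ∧ u = c • FreeLieAlgebra.of ℚ a + Ph a z ∧ (w a ≠ n → c = 0))
    ?_ ⟨0, 0, zero_mem _, by simp, fun _ => rfl⟩ ?_ ?_ hu
  · intro t ht
    rcases elim_span w a (FreeLieAlgebra.of ℚ) t with h | h
    · subst h
      exact ⟨1, 0, zero_mem _, by simp [Tr.eval_leaf], fun h => absurd ht h⟩
    · have : AddSubgroup.closure {z | ∃ v : Tr (Xa a),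
          v.wt (fun q => w (q.1 : X) + q.2 * w a) = t.wt w ∧
          z = v.eval (fun q => adIter (FreeLieAlgebra.of ℚ a)
            (FreeLieAlgebra.of ℚ (q.1 : X)) q.2)} ≤
          ((wtPart ℚ (wa w a) n).map (Ph a : FreeLieAlgebra ℚ (Xa a) →ₗ[ℚ]
            FreeLieAlgebra ℚ X)).toAddSubgroup := by
        rw [AddSubgroup.closure_le]
        rintro z ⟨v, hv, rfl⟩
        refine ⟨v.eval (FreeLieAlgebra.of ℚ), ?_, Ph_eval a v⟩
        have := eval_mem (wa w a) v
        rwa [show v.wt (wa w a) = n from hv.trans ht] at this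
      obtain ⟨z, hz, e⟩ := this h
      exact ⟨0, z, hz, by rw [zero_smul, zero_add]; exact e.symm, fun _ => rfl⟩
  · rintro _ _ ⟨c, z, hz, rfl, hc⟩ ⟨d, y, hy, rfl, hd⟩
    refine ⟨c + d, z + y, add_mem hz hy, ?_, fun h => by rw [hc h, hd h, add_zero]⟩
    rw [add_smul, map_add]; abel
  · rintro r _ ⟨c, z, hz, rfl, hc⟩
    refine ⟨r * c, r • z, Submodule.smul_mem _ _ hz, ?_, fun h => by rw [hc h, mul_zero]⟩
    rw [smul_add, map_smul, smul_smul]

theorem lieHom_adIter {g h : Type} [LieRing g] [LieAlgebra ℚ g] [LieRing h] [LieAlgebra ℚ h]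
    (φ : g →ₗ⁅ℚ⁆ h) (u v : g) (i : ℕ) : φ (adIter u v i) = adIter (φ u) (φ v) i := by
  induction i with
  | zero => rfl
  | succ i ih => rw [adIter_eq1, adIter_eq1, LieHom.map_lie, ih]

theorem toFree_lift {Y A : Type} [Ring A] [Algebra ℚ A] (f : Y → A) (z : FreeLieAlgebra ℚ Y) :
    FreeAlgebra.lift ℚ f (toFree ℚ Y z) = FreeLieAlgebra.lift ℚ f z := by
  induction z using Low.free_induction with
  | hof x => rw [toFree_of, FreeAlgebra.lift_ι_apply, FreeLieAlgebra.lift_of_apply]
  | h0 => simp
  | hadd a b ha hb => rw [map_add, map_add, ha, hb, map_add]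
  | hsmul c a ha => rw [map_smul, map_smul, ha, map_smul]
  | hlie a b ha hb =>
    rw [LieHom.map_lie, LieHom.map_lie, LieRing.of_associative_ring_bracket, map_sub, map_mul,
      map_mul, ha, hb, LieRing.of_associative_ring_bracket]

theorem lift_zero {Y g : Type} [LieRing g] [LieAlgebra ℚ g] (z : FreeLieAlgebra ℚ Y) :
    FreeLieAlgebra.lift ℚ (fun _ : Y => (0 : g)) z = 0 := by
  induction z using Low.free_induction with
  | hof x => rw [FreeLieAlgebra.lift_of_apply]
  | h0 => simp
  | hadd a b ha hb => rw [map_add, ha, hb, add_zero]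
  | hsmul c a ha => rw [map_smul, ha, smul_zero]
  | hlie a b ha hb => rw [LieHom.map_lie, ha, zero_lie]

theorem toFree_Ph (a : X) (z : FreeLieAlgebra ℚ (Xa a)) : toFree ℚ X (Ph a z) =
    FreeAlgebra.lift ℚ (fun q : Xa a =>
      adIter (FreeAlgebra.ι ℚ a) (FreeAlgebra.ι ℚ (q.1 : X)) q.2) (toFree ℚ (Xa a) z) := by
  rw [toFree_lift]
  have : (toFree ℚ X).comp (Ph a) = FreeLieAlgebra.lift ℚ (fun q : Xa a =>
      adIter (FreeAlgebra.ι ℚ a) (FreeAlgebra.ι ℚ (q.1 : X)) q.2) := by
    apply FreeLieAlgebra.hom_ext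
    intro q
    rw [LieHom.comp_apply, Ph_of, lieHom_adIter, toFree_of, toFree_of,
      FreeLieAlgebra.lift_of_apply]
  exact DFunLike.congr_fun this z

/-- The hypotheses on the weights. -/
structure Adm (w : X → ℕ) : Prop where
  pos : ∀ x, 0 < w x
  fin : ∀ n, {x | w x = n}.Finite

theorem Adm.elim {w : X → ℕ} (h : Adm w) (a : X) : Adm (wa w a) :=
  ⟨fun q => Nat.add_pos_left (h.pos _) _, LieBasis.fin' h.fin a (h.pos a)⟩

theorem Ph_inj {w : X → ℕ} (h : Adm w) (a : X) {n : ℕ} {c : ℚ} {z : FreeLieAlgebra ℚ (Xa a)}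
    (hz : z ∈ wtPart ℚ (wa w a) n) (e : c • FreeLieAlgebra.of ℚ a + Ph a z = 0) :
    c = 0 ∧ z = 0 := by
  have e2 := congrArg (toFree ℚ X) e
  rw [map_add, map_smul, toFree_of, toFree_Ph, map_zero] at e2
  obtain ⟨h1, h2⟩ := elim_injective ℚ a c _ (by rw [toFree_lift, lift_zero]) e2
  exact ⟨h1, toFree_injOn _ (h.elim a).pos (h.elim a).fin hz h2⟩

/-- The dimension of the part of weight `n`. -/
def dm (w : X → ℕ) (n : ℕ) : ℕ := Module.finrank ℚ (wtPart ℚ w n)

theorem dm_elim {w : X → ℕ} (h : Adm w) (a : X) (n : ℕ) :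
    dm w n = dm (wa w a) n + if w a = n then 1 else 0 := by
  haveI := wtPart_finite (R := ℚ) _ (h.elim a).pos (h.elim a).fin n
  let f : wtPart ℚ (wa w a) n →ₗ[ℚ] wtPart ℚ w n :=
    ((Ph a : FreeLieAlgebra ℚ (Xa a) →ₗ[ℚ] FreeLieAlgebra ℚ X).domRestrict _).codRestrict _
      fun z => Ph_mem w a z.2
  have hf : ∀ z, (f z : FreeLieAlgebra ℚ X) = Ph a z := fun _ => rfl
  split_ifs with hn
  · let g : ℚ →ₗ[ℚ] wtPart ℚ w n :=
      LinearMap.toSpanSingleton ℚ _ ⟨FreeLieAlgebra.of ℚ a, hn ▸ of_mem w a⟩
    have hg : ∀ c, (g c : FreeLieAlgebra ℚ X) = c • FreeLieAlgebra.of ℚ a := fun _ => rfl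
    have hb : Function.Bijective (f.coprod g) := by
      constructor
      · rw [injective_iff_map_eq_zero]
        rintro ⟨z, c⟩ e
        have e2 := congrArg Subtype.val e
        rw [LinearMap.coprod_apply, Submodule.coe_add, hf, hg, add_comm] at e2
        obtain ⟨h1, h2⟩ := Ph_inj h a z.2 e2
        exact Prod.ext (Subtype.ext h2) h1
      · intro u
        obtain ⟨c, z, hz, e, -⟩ := decomp w a u.2
        refine ⟨(⟨z, hz⟩, c), Subtype.ext ?_⟩
        rw [LinearMap.coprod_apply, Submodule.coe_add, hf, hg, add_comm, e]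
    have := (LinearEquiv.ofBijective _ hb).finrank_eq
    rw [Module.finrank_prod, Module.finrank_self] at this
    exact this.symm
  · have hb : Function.Bijective f := by
      constructor
      · rw [injective_iff_map_eq_zero]
        intro z e
        have e2 := congrArg Subtype.val e
        rw [hf] at e2
        exact Subtype.ext (Ph_inj h a (c := 0) z.2 (by rw [zero_smul, zero_add]; exact e2)).2
      · intro u
        obtain ⟨c, z, hz, e, hc⟩ := decomp w a u.2
        refine ⟨⟨z, hz⟩, Subtype.ext ?_⟩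
        rw [hf, e, hc hn, zero_smul, zero_add]
    exact (LinearEquiv.ofBijective _ hb).finrank_eq.symm

/-- Induction by elimination of all letters of weight `< n`. -/
theorem elim_ind (n : ℕ) (P : ∀ X : Type, (X → ℕ) → Prop)
    (base : ∀ (X : Type) (w : X → ℕ), Adm w → (∀ x, n ≤ w x) → P X w)
    (step : ∀ (X : Type) (w : X → ℕ) (a : X), Adm w → w a < n → P (Xa a) (wa w a) → P X w)
    (X : Type) (w : X → ℕ) (h : Adm w) : P X w := by
  have main : ∀ m j : ℕ, j + m = n + 1 → 1 ≤ j → ∀ (X : Type) (w : X → ℕ), Adm w →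
      (∀ x, j ≤ w x) → P X w := by
    intro m
    induction m with
    | zero => exact fun j hj _ X w h hw => base X w h fun x => by have := hw x; omega
    | succ m ih =>
      intro j hj h1
      rcases Nat.eq_zero_or_pos m with rfl | hm
      · exact fun X w h hw => base X w h fun x => by have := hw x; omega
      have key : ∀ c : ℕ, ∀ (X : Type) (w : X → ℕ), Adm w →
          (∀ x, j ≤ w x) → {x | w x = j}.ncard = c → P X w := by
        intro c
        induction c with
        | zero =>
          intro X w h hw hc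
          rw [Set.ncard_eq_zero (h.fin j)] at hc
          apply ih (j + 1) (by omega) (by omega) X w h
          intro x
          have h2 := hw x
          have h3 : w x ≠ j := fun e => by
            have : x ∈ ({x | w x = j} : Set X) := e
            rw [hc] at this
            exact this
          omega
        | succ c ihc =>
          intro X w h hw hc
          have hne : {x | w x = j}.Nonempty := by
            apply Set.nonempty_of_ncard_ne_zero
            omega
          obtain ⟨a, ha⟩ := hne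
          have ha' : w a = j := ha
          apply step X w a h (by omega)
          apply ihc _ _ (h.elim a)
          · intro q
            have := hw (q.1 : X)
            unfold wa
            omega
          · have hinj : Set.InjOn (fun q : Xa a => (q.1 : X)) {q | wa w a q = j} := by
              rintro ⟨b, i⟩ hb ⟨b', i'⟩ hb' heq
              simp only [Set.mem_setOf_eq, wa] at hb hb' heq
              have e1 := hw (b : X)
              have e2 := hw (b' : X)
              rw [ha'] at hb hb'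
              have i0 : i = 0 := by
                rcases Nat.eq_zero_or_pos i with h | h
                · exact h
                · nlinarith
              have i0' : i' = 0 := by
                rcases Nat.eq_zero_or_pos i' with h | h
                · exact h
                · nlinarith
              rw [i0, i0', Subtype.ext heq]
            have himg : (fun q : Xa a => (q.1 : X)) '' {q | wa w a q = j} =
                {x | w x = j} \ {a} := by
              ext x
              constructor
              · rintro ⟨⟨b, i⟩, hb, rfl⟩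
                simp only [Set.mem_setOf_eq, wa] at hb
                refine ⟨?_, b.2⟩
                have e1 := hw (b : X)
                show w (b : X) = j
                omega
              · rintro ⟨hx, hxa⟩
                refine ⟨(⟨x, hxa⟩, 0), ?_, rfl⟩
                show w x + 0 * w a = j
                rw [zero_mul, add_zero]
                exact hx
            rw [← Set.ncard_image_of_injOn hinj, himg, Set.ncard_diff_singleton_of_mem ha, hc]
            rfl
      exact fun X w h hw => key _ X w h hw rfl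
  exact main n 1 (by omega) le_rfl X w h h.pos

end Vale.Agent.N029
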