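import Vale.Agent.N029.Asym
import Vale.Agent.N029.Comm
import Vale.Agent.P029W78.Main

/-!
# P029: dimensions and centralizers in `W` and `𝔤𝔯𝔱₁`
-/

set_option linter.all false

noncomputable section

namespace Vale.Agent.N029

open Vale.Agent.P029.Stmt Vale.Agent.P029W78 Finset

section graded

variable {A : Type} [LieRing A] [LieAlgebra ℚ A] (𝒜 : ℕ → Submodule ℚ A) [SetLike.GradedBracket 𝒜]

theorem conv_low {a b : ℕ → A} {m n : ℕ} (ha : ∀ i < m, a i = 0) (hb : ∀ j < n, b j = 0) :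
    conv a b (m + n) = ⁅a m, b n⁆ := by
  rw [conv, sum_eq_single (m, n)]
  · rintro ⟨i, j⟩ hp hne
    have e : i + j = m + n := HasAntidiagonal.mem_antidiagonal.1 hp
    rcases lt_trichotomy i m with h | h | h
    · rw [ha i h, zero_lie]
    · exact absurd (Prod.ext h (by simp only; omega)) hne
    · rw [hb j (by omega), lie_zero]
  · intro h
    exact (h (HasAntidiagonal.mem_antidiagonal.2 rfl)).elim

theorem hat_comm (hd : ∀ m n, m ≠ n → Disjoint (𝒜 m) (𝒜 n))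
    (hc : ∀ m n, ∀ a ∈ 𝒜 m, ∀ b ∈ 𝒜 n, a ≠ 0 → ⁅a, b⁆ = 0 → ∃ c : ℚ, b = c • a)
    (a b : Hat 𝒜) (h0 : a ≠ 0) (e : ⁅a, b⁆ = 0) : ∃ c : ℚ, b = c • a := by
  classical
  have hex : ∃ m, a.part 𝒜 m ≠ 0 := by
    by_contra h
    exact h0 (funext fun n => Subtype.ext (not_not.1 fun e => h ⟨n, e⟩))
  set m := Nat.find hex with hm
  have hm1 : a.part 𝒜 m ≠ 0 := Nat.find_spec hex
  have hm2 : ∀ i < m, a.part 𝒜 i = 0 := fun i hi => not_not.1 (Nat.find_min hex hi)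
  have K : ∀ b : Hat 𝒜, ⁅a, b⁆ = 0 → ∀ n, (∀ j < n, b.part 𝒜 j = 0) →
      ∃ c : ℚ, b.part 𝒜 n = c • a.part 𝒜 m := fun b e n hn => by
    refine hc m n (a.part 𝒜 m) (a m).2 (b.part 𝒜 n) (b n).2 hm1 ?_
    rw [← conv_low hm2 hn]
    exact congrArg (fun z : Hat 𝒜 => z.part 𝒜 (m + n)) e
  have K2 : ∀ b : Hat 𝒜, ⁅a, b⁆ = 0 → ∀ n, n ≠ m → (∀ j < n, b.part 𝒜 j = 0) →
      b.part 𝒜 n = 0 := fun b e n hn hj => by
    obtain ⟨c, h⟩ := K b e n hj
    exact Submodule.disjoint_def.1 (hd n m hn) _ (b n).2 (h ▸ Submodule.smul_mem _ c (a m).2)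
  have h1 : ∀ j, j < m → b.part 𝒜 j = 0 := fun j => by
    induction j using Nat.strong_induction_on with
    | _ j ih => exact fun hj => K2 b e j hj.ne fun i hi => ih i hi (hi.trans hj)
  obtain ⟨c, h2⟩ := K b e m h1
  have e2 : ⁅a, b - c • a⁆ = 0 := by rw [lie_sub, lie_smul, lie_self, e, smul_zero, sub_zero]
  have h3 : ∀ j, (b - c • a).part 𝒜 j = 0 := fun j => by
    induction j using Nat.strong_induction_on with
    | _ j ih =>
      by_cases hj : j = m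
      · rw [hj]
        exact sub_eq_zero.2 h2
      · exact K2 _ e2 j hj ih
  exact ⟨c, sub_eq_zero.1 (funext fun n => Subtype.ext (h3 n))⟩

theorem exists_emb (h : DirectSum.IsInternal 𝒜) :
    ∃ j : A →ₗ[ℚ] Hat 𝒜, Function.Injective j ∧ ∀ a b, j ⁅a, b⁆ = ⁅j a, j b⁆ := by
  classical
  letI := h.chooseDecomposition
  let j : A →ₗ[ℚ] Hat 𝒜 :=
    { toFun := fun a n => DirectSum.decompose 𝒜 a n
      map_add' := fun a b => funext fun n => by rw [DirectSum.decompose_add]; rfl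
      map_smul' := fun c a => funext fun n => by rw [DirectSum.decompose_smul]; rfl }
  have hj : ∀ i, ∀ a ∈ 𝒜 i, ∀ n, (j a).part 𝒜 n = if i = n then a else 0 := by
    intro i a ha n
    split_ifs with hn
    · subst hn
      exact DirectSum.decompose_of_mem_same 𝒜 ha
    · exact DirectSum.decompose_of_mem_ne 𝒜 ha hn
  refine ⟨j, fun a b e => (DirectSum.decompose 𝒜).injective (DFinsupp.ext fun n => congrFun e n),
    fun a b => ?_⟩
  induction a using DirectSum.Decomposition.inductionOn 𝒜 with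
  | zero => simp
  | add a a' ha ha' => rw [add_lie, map_add, map_add, add_lie, ha, ha']
  | @homogeneous i a =>
    induction b using DirectSum.Decomposition.inductionOn 𝒜 with
    | zero => simp
    | add b b' hb hb' => rw [lie_add, map_add, map_add, lie_add, hb, hb']
    | @homogeneous k b =>
      refine funext fun n => Subtype.ext ?_
      change (j ⁅(a : A), (b : A)⁆).part 𝒜 n = conv ((j a).part 𝒜) ((j b).part 𝒜) n
      rw [hj (i + k) _ (SetLike.GradedBracket.bracket_mem a.2 b.2), conv]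
      simp only [hj i _ a.2, hj k _ b.2]
      split_ifs with hn
      · rw [sum_eq_single (i, k)]
        · simp
        · rintro ⟨p, q⟩ _ hne
          by_cases hp : i = p
          · rw [if_neg (fun hq : k = q => hne (Prod.ext hp.symm hq.symm)), lie_zero]
          · rw [if_neg hp, zero_lie]
        · intro h
          exact absurd (HasAntidiagonal.mem_antidiagonal.2 hn) h
      · refine (sum_eq_zero ?_).symm
        rintro ⟨p, q⟩ hp
        have e : p + q = n := HasAntidiagonal.mem_antidiagonal.1 hp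
        by_cases hp : i = p
        · rw [if_neg (fun hq : k = q => hn (by omega)), lie_zero]
        · rw [if_neg hp, zero_lie]

end graded

theorem dim_W (n : ℕ) : Module.finrank ℚ (Wn n) = dm wF n := by
  rw [(P029W78.main.2.2.2.2 n).2.2, P029.Bridge.Fpart_eq]
  rfl

theorem comm_Grt (a b : Grt) (h0 : a ≠ 0) (e : ⁅a, b⁆ = 0) : ∃ c : ℚ, b = c • a := by
  refine hat_comm Wn (fun m n h => indep_W.pairwiseDisjoint h) ?_ a b h0 e
  obtain ⟨σ, -, hb, hm, -⟩ := P029W78.main.2.2.2.1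
  intro m n a ha b hb' h0 e
  rw [← hm] at ha hb'
  obtain ⟨u, hu, rfl⟩ := ha
  obtain ⟨v, hv, rfl⟩ := hb'
  rw [P029.Bridge.Fpart_eq] at hu hv
  obtain ⟨c, hc⟩ := comm_hom adm_wF hu hv (fun e => h0 (by rw [e, map_zero]))
    (hb.1 (by rw [LieHom.map_lie, map_zero]; exact e))
  exact ⟨c, by rw [hc, map_smul]⟩

theorem comm_W (a b : W) (h0 : a ≠ 0) (e : ⁅a, b⁆ = 0) : ∃ c : ℚ, b = c • a := by
  obtain ⟨j, h1, h2⟩ := exists_emb Wn P029W78.main.2.2.1.1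
  obtain ⟨c, hc⟩ := comm_Grt (j a) (j b) (fun e => h0 (h1 (by rw [e, map_zero])))
    (by rw [← h2, e, map_zero])
  exact ⟨c, h1 (by rw [hc, map_smul])⟩

theorem span_eq (n : ℕ) :
    Submodule.span ℚ {ψ : L | IsWn n ψ} = (Wn n).map W.incl := by
  have : {ψ : L | IsWn n ψ} = ((Wn n).map W.incl : Submodule ℚ L) := by
    ext ψ
    constructor
    · exact fun h => ⟨⟨ψ, h.1⟩, h.2, rfl⟩
    · rintro ⟨a, ha, rfl⟩
      exact ⟨a.2, ha⟩
  rw [this, Submodule.span_eq]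

theorem dim_span (n : ℕ) : FiniteDimensional ℚ (Submodule.span ℚ {ψ : L | IsWn n ψ}) ∧
    Module.finrank ℚ (Submodule.span ℚ {ψ : L | IsWn n ψ}) = dm wF n := by
  haveI := (P029W78.main.2.2.2.2 n).1
  rw [span_eq, ← dim_W]
  exact ⟨inferInstance, (Submodule.equivMapOfInjective _ incl_inj _).finrank_eq.symm⟩

theorem iso : ∃ (σ : ℕ → L) (f : F →ₗ[ℚ] L),
    (∀ k, IsWn (2 * k + 3) (σ k) ∧ f (FreeLieAlgebra.of ℚ k) = σ k) ∧
    (∀ a b, f ⁅a, b⁆ = ihara (f a) (f b)) ∧ Function.Injective f ∧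
    (∀ ψ, IsW ψ ↔ ∃ a, f a = ψ) ∧ (∀ n ψ, IsWn n ψ ↔ ∃ a ∈ Fpart n, f a = ψ) ∧
    Set.BijOn (fun (a : ℕ → F) n => f (a n)) {a | ∀ n, a n ∈ Fpart n} {ψ | ∀ n, IsWn n (ψ n)} ∧
    ∀ (a b : ℕ → F) (n : ℕ), f (∑ p ∈ HasAntidiagonal.antidiagonal n, ⁅a p.1, b p.2⁆) =
      ∑ p ∈ HasAntidiagonal.antidiagonal n, ihara (f (a p.1)) (f (b p.2)) := by
  obtain ⟨f, h0, h1, h2, h3, h4, h5, h6⟩ := P029.Bridge.deligneDrinfeld
  let g : F →ₗ[ℚ] L := { toFun := f, map_add' := h1, map_smul' := h2 }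
  have hb : ∀ a b, g ⁅a, b⁆ = ihara (g a) (g b) := fun a b => isBr_eq (h3 a b)
  refine ⟨fun k => f (FreeLieAlgebra.of ℚ k), g, fun k => ⟨h0 k, rfl⟩, hb, h4, h5, h6,
    ⟨fun a ha n => (h6 n _).2 ⟨a n, ha n, rfl⟩, fun a _ b _ e => funext fun n =>
      h4 (congrFun e n), fun ψ hψ => ?_⟩, fun a b n => ?_⟩
  · choose a ha e using fun n => (h6 n (ψ n)).1 (hψ n)
    exact ⟨a, ha, funext e⟩
  · rw [map_sum]
    exact sum_congr rfl fun p _ => hb _ _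

theorem comm_L (a b : L) (ha : IsW a) (hb : IsW b) (h0 : a ≠ 0) (e : ihara a b = 0) :
    ∃ c : ℚ, b = c • a := by
  obtain ⟨c, hc⟩ := comm_W ⟨a, ha⟩ ⟨b, hb⟩ (fun h => h0 (congrArg Subtype.val h)) (Subtype.ext e)
  exact ⟨c, congrArg Subtype.val hc⟩

theorem comm_seq (a b : ℕ → L) (ha : ∀ n, IsWn n (a n)) (hb : ∀ n, IsWn n (b n)) (h0 : a ≠ 0)
    (e : ∀ n, ∑ p ∈ HasAntidiagonal.antidiagonal n, ihara (a p.1) (b p.2) = 0) :
    ∃ c : ℚ, b = c • a := by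
  let A : Grt := fun n => ⟨⟨a n, (ha n).1⟩, (ha n).2⟩
  let B : Grt := fun n => ⟨⟨b n, (hb n).1⟩, (hb n).2⟩
  obtain ⟨c, hc⟩ := comm_Grt A B
    (fun h => h0 (funext fun n => congrArg (fun z : Grt => W.incl (z.part Wn n)) h))
    (funext fun n => Subtype.ext (incl_inj (by
      change W.incl (conv (A.part Wn) (B.part Wn) n) = 0
      rw [conv, map_sum]
      exact e n)))
  exact ⟨c, funext fun n => congrArg (fun z : Grt => W.incl (z.part Wn n)) hc⟩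

theorem main :
    (∃ (σ : ℕ → L) (f : F →ₗ[ℚ] L),
      (∀ k, IsWn (2 * k + 3) (σ k) ∧ f (FreeLieAlgebra.of ℚ k) = σ k) ∧
      (∀ a b, f ⁅a, b⁆ = ihara (f a) (f b)) ∧ Function.Injective f ∧
      (∀ ψ, IsW ψ ↔ ∃ a, f a = ψ) ∧ (∀ n ψ, IsWn n ψ ↔ ∃ a ∈ Fpart n, f a = ψ) ∧
      Set.BijOn (fun (a : ℕ → F) n => f (a n)) {a | ∀ n, a n ∈ Fpart n} {ψ | ∀ n, IsWn n (ψ n)} ∧
      ∀ (a b : ℕ → F) (n : ℕ), f (∑ p ∈ HasAntidiagonal.antidiagonal n, ⁅a p.1, b p.2⁆) =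
        ∑ p ∈ HasAntidiagonal.antidiagonal n, ihara (f (a p.1)) (f (b p.2))) ∧
    (∃ P : ℕ → ℤ, P 0 = 3 ∧ P 1 = 0 ∧ P 2 = 2 ∧ (∀ n, P (n + 3) = P (n + 1) + P n) ∧
      ∀ n ≥ 1, FiniteDimensional ℚ (Submodule.span ℚ {ψ : L | IsWn n ψ}) ∧
        (n : ℤ) * Module.finrank ℚ (Submodule.span ℚ {ψ : L | IsWn n ψ}) =
          ∑ p ∈ n.divisorsAntidiagonal,
            ArithmeticFunction.moebius p.1 * (P p.2 - 1 - (-1) ^ p.2)) ∧
    (∃ ρ : ℝ, 1 < ρ ∧ ρ ^ 3 = ρ + 1 ∧ ∀ n : ℕ,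
      |(n : ℝ) * Module.finrank ℚ (Submodule.span ℚ {ψ : L | IsWn n ψ}) - ρ ^ n| ≤ 18 * √ρ ^ n) ∧
    ((∀ a b : L, IsW a → IsW b → a ≠ 0 → ihara a b = 0 → ∃ c : ℚ, b = c • a) ∧
      ∀ a b : ℕ → L, (∀ n, IsWn n (a n)) → (∀ n, IsWn n (b n)) → a ≠ 0 →
        (∀ n, ∑ p ∈ HasAntidiagonal.antidiagonal n, ihara (a p.1) (b p.2) = 0) →
        ∃ c : ℚ, b = c • a) ∧
    ∀ ψ : L, ∃! E : L → L, IsD ψ E := by
  refine ⟨iso, ⟨per, rfl, rfl, rfl, fun _ => rfl, fun n hn => ⟨(dim_span n).1, ?_⟩⟩, ?_,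
    ⟨comm_L, comm_seq⟩, exu⟩
  · rw [(dim_span n).2]
    exact moebius_formula per rfl rfl rfl (fun _ => rfl) n hn
  · obtain ⟨ρ, h1, h2, h3⟩ := exists_rho
    refine ⟨ρ, by linarith, h3, fun n => ?_⟩
    rw [(dim_span n).2]
    exact growth h1 h2 h3 n

end Vale.Agent.N029
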