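import Vale.Agent.N029.Elim
import Mathlib.RingTheory.PowerSeries.Derivative
import Mathlib.RingTheory.PowerSeries.NoZeroDivisors
import Mathlib.NumberTheory.ArithmeticFunction.Moebius

/-!
# P029: the dimension formula for free Lie algebras with weights
-/

set_option linter.all false

noncomputable section

namespace Vale.Agent.N029

open Vale.Agent.P029 PowerSeries

variable {Y : Type}

/-- The number of letters of weight `m`. -/
def cnt (w : Y → ℕ) (m : ℕ) : ℕ := {x | w x = m}.ncard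

theorem cnt_elim {w : Y → ℕ} (h : Adm w) (a : Y) (m : ℕ) :
    cnt (wa w a) m + (if w a = m then 1 else 0) =
      cnt w m + if w a ≤ m then cnt (wa w a) (m - w a) else 0 := by
  classical
  have hS : {q : Xa a | wa w a q = m} =
      (fun b : {b : Y // b ≠ a} => ((b, 0) : Xa a)) '' {b | w (b : Y) = m} ∪
        (fun q : Xa a => ((q.1, q.2 + 1) : Xa a)) '' {q | wa w a q + w a = m} := by
    ext ⟨b, i⟩
    simp only [Set.mem_setOf_eq, Set.mem_union, Set.mem_image, wa, Prod.mk.injEq]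
    constructor
    · intro e
      cases i with
      | zero => exact Or.inl ⟨b, by simpa using e, rfl, rfl⟩
      | succ i => exact Or.inr ⟨(b, i), by rw [← e]; ring, rfl, rfl⟩
    · rintro (⟨c, e, rfl, rfl⟩ | ⟨⟨c, j⟩, e, rfl, rfl⟩)
      · simpa using e
      · rw [← e]; ring
  have hfin := (h.elim a).fin m
  have i0 : Function.Injective (fun b : {b : Y // b ≠ a} => ((b, 0) : Xa a)) :=
    fun b c e => congrArg Prod.fst e
  have i1 : Function.Injective (fun q : Xa a => ((q.1, q.2 + 1) : Xa a)) := by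
    rintro ⟨b, i⟩ ⟨c, j⟩ e
    simp only [Prod.mk.injEq] at e
    exact Prod.ext e.1 (by omega)
  have e1 : cnt (wa w a) m = {b : {b : Y // b ≠ a} | w (b : Y) = m}.ncard +
      {q : Xa a | wa w a q + w a = m}.ncard := by
    rw [cnt, hS, Set.ncard_union_eq _ ((hS ▸ hfin).subset Set.subset_union_left)
      ((hS ▸ hfin).subset Set.subset_union_right), Set.ncard_image_of_injective _ i0,
      Set.ncard_image_of_injective _ i1]
    rw [Set.disjoint_left]
    rintro _ ⟨b, -, rfl⟩ ⟨q, -, e⟩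
    simp at e
  have e2 : {b : {b : Y // b ≠ a} | w (b : Y) = m}.ncard + (if w a = m then 1 else 0) =
      cnt w m := by
    have : Subtype.val '' {b : {b : Y // b ≠ a} | w (b : Y) = m} = {x | w x = m} \ {a} := by
      ext x
      constructor
      · rintro ⟨b, hb, rfl⟩
        exact ⟨hb, b.2⟩
      · rintro ⟨h1, h2⟩
        exact ⟨⟨x, h2⟩, h1, rfl⟩
    rw [← Set.ncard_image_of_injective _ Subtype.val_injective, this, cnt]
    split_ifs with hm
    · exact Set.ncard_diff_singleton_add_one (show a ∈ {x | w x = m} from hm) (h.fin m)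
    · rw [Set.diff_singleton_eq_self (show a ∉ {x | w x = m} from hm), add_zero]
  have e3 : {q : Xa a | wa w a q + w a = m}.ncard =
      if w a ≤ m then cnt (wa w a) (m - w a) else 0 := by
    split_ifs with hm
    · rw [cnt]
      congr 1
      ext q
      simp only [Set.mem_setOf_eq]
      omega
    · have : {q : Xa a | wa w a q + w a = m} = ∅ := by
        ext q
        simp only [Set.mem_setOf_eq, Set.mem_empty_iff_false, iff_false]
        omega
      rw [this, Set.ncard_empty]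
  omega

/-- The generating series of the letters. -/
def fs (w : Y → ℕ) : ℤ⟦X⟧ := mk fun m => (cnt w m : ℤ)

/-- The series of the divisor sums of `d * dim`. -/
def Gs (w : Y → ℕ) : ℤ⟦X⟧ := mk fun m => ∑ d ∈ m.divisors, (d : ℤ) * dm w d

/-- The series `k X^k / (1 - X^k)`. -/
def Es (k : ℕ) : ℤ⟦X⟧ := mk fun m => if k ∈ m.divisors then (k : ℤ) else 0

theorem fs_elim {w : Y → ℕ} (h : Adm w) (a : Y) :
    fs (wa w a) * (1 - X ^ w a) = fs w - X ^ w a := by
  ext m
  have := cnt_elim h a m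
  rw [mul_sub, mul_one, map_sub, map_sub, coeff_mul_X_pow', coeff_X_pow]
  simp only [fs, coeff_mk]
  by_cases h1 : w a = m
  · rw [if_pos h1, if_pos h1.le] at this
    rw [if_pos h1.le, if_pos h1.symm]
    omega
  · rw [if_neg h1] at this
    rw [if_neg (Ne.symm h1)]
    split_ifs at this ⊢ <;> omega

theorem Gs_elim {w : Y → ℕ} (h : Adm w) (a : Y) : Gs w = Gs (wa w a) + Es (w a) := by
  ext m
  simp only [Gs, Es, map_add, coeff_mk, dm_elim h a]
  push_cast
  simp only [mul_add, Finset.sum_add_distrib, mul_ite, mul_one, mul_zero]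
  rw [Finset.sum_ite_eq]

theorem Es_mul {k : ℕ} (hk : 0 < k) : Es k * (1 - X ^ k) = (k : ℤ⟦X⟧) * X ^ k := by
  ext m
  rw [mul_sub, mul_one, map_sub, coeff_mul_X_pow', ← nsmul_eq_mul, map_nsmul, coeff_X_pow]
  simp only [Es, coeff_mk, Nat.mem_divisors]
  by_cases h1 : m = k
  · subst h1
    simp [hk.ne']
  · by_cases h2 : k ≤ m
    · have : (k ∣ m ∧ m ≠ 0) ↔ (k ∣ m - k ∧ m - k ≠ 0) := by
        rw [Nat.dvd_sub_self_right]
        constructor
        · exact fun h => ⟨Or.inl h.1, by omega⟩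
        · rintro ⟨h | h, h'⟩
          · exact ⟨h, by omega⟩
          · omega
      simp only [this, if_pos h2, if_neg h1, sub_self, smul_zero]
    · have : ¬ (k ∣ m ∧ m ≠ 0) := fun h => h2 (Nat.le_of_dvd (by omega) h.1)
      simp only [if_neg this, if_neg h2, if_neg h1, sub_self, smul_zero]

theorem X_deriv_pow (k : ℕ) : (X : ℤ⟦X⟧) * d⁄dX ℤ (X ^ k) = (k : ℤ⟦X⟧) * X ^ k := by
  cases k with
  | zero => simp
  | succ k =>
    rw [derivative_pow, derivative_X, Nat.add_sub_cancel]
    ring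

theorem dm_low {w : Y → ℕ} {n d : ℕ} (hw : ∀ x, n ≤ w x) (hd : d < n) : dm w d = 0 := by
  have : wtPart ℚ w d = ⊥ := by
    rw [wtPart, Submodule.span_eq_bot]
    rintro _ ⟨t, ht, -⟩
    have := LieBasis.wt_le hw t
    omega
  rw [dm, this, finrank_bot]

theorem witt_mod (n : ℕ) (Y : Type) (w : Y → ℕ) (h : Adm w) :
    X ^ n ∣ Gs w * (1 - fs w) - X * d⁄dX ℤ (fs w) := by
  refine elim_ind n (fun Y w => X ^ n ∣ Gs w * (1 - fs w) - X * d⁄dX ℤ (fs w)) ?_ ?_ Y w h
  · intro Y w h hw
    have hf : ∀ m < n, cnt w m = 0 := fun m hm => by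
      have : {x | w x = m} = ∅ := by
        ext x
        have := hw x
        simp only [Set.mem_setOf_eq, Set.mem_empty_iff_false, iff_false]
        omega
      rw [cnt, this, Set.ncard_empty]
    refine dvd_sub (Dvd.dvd.mul_right ?_ _) ?_
    · rw [X_pow_dvd_iff]
      intro m hm
      rw [Gs, coeff_mk]
      refine Finset.sum_eq_zero fun d hd => ?_
      rw [dm_low hw (lt_of_le_of_lt (Nat.divisor_le hd) hm)]
      simp
    · rw [X_pow_dvd_iff]
      intro m hm
      cases m with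
      | zero => simp
      | succ m => rw [coeff_succ_X_mul, coeff_derivative, fs, coeff_mk, hf _ hm]; simp
  · intro Y w a h _ ih
    have e1 := fs_elim h a
    have e2 := congrArg (d⁄dX ℤ) e1
    rw [Derivation.leibniz, map_sub, map_sub, derivative_one, smul_eq_mul, smul_eq_mul] at e2
    have e3 := Es_mul (h.pos a)
    have e4 := X_deriv_pow (w a)
    have : Gs w * (1 - fs w) - X * d⁄dX ℤ (fs w) = (1 - X ^ w a) *
        (Gs (wa w a) * (1 - fs (wa w a)) - X * d⁄dX ℤ (fs (wa w a))) := by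
      rw [Gs_elim h a]
      linear_combination (Gs (wa w a) + Es (w a)) * e1 + X * e2 + (1 - fs (wa w a)) * e3 -
        (1 - fs (wa w a)) * e4
    rw [this]
    exact Dvd.dvd.mul_left ih _

/-- The generalized Witt identity. -/
theorem witt {w : Y → ℕ} (h : Adm w) : Gs w * (1 - fs w) = X * d⁄dX ℤ (fs w) := by
  rw [← sub_eq_zero]
  ext m
  rw [(X_pow_dvd_iff.1 (witt_mod (m + 1) Y w h)) m (Nat.lt_succ_self m), map_zero]

/-- The weights `3, 5, 7, …`. -/
def wF : ℕ → ℕ := fun k => 2 * k + 3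

theorem adm_wF : Adm wF := by
  refine ⟨fun k => by unfold wF; omega, fun n => (Set.finite_Iic n).subset fun k hk => ?_⟩
  simp only [Set.mem_setOf_eq, wF, Set.mem_Iic] at hk ⊢
  omega

theorem cnt_wF (m : ℕ) : cnt wF m = if 3 ≤ m ∧ m % 2 = 1 then 1 else 0 := by
  split_ifs with h
  · have : {k | wF k = m} = {(m - 3) / 2} := by
      ext k
      simp only [Set.mem_setOf_eq, wF, Set.mem_singleton_iff]
      omega
    rw [cnt, this, Set.ncard_singleton]
  · have : {k | wF k = m} = ∅ := by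
      ext k
      simp only [Set.mem_setOf_eq, wF, Set.mem_empty_iff_false, iff_false]
      omega
    rw [cnt, this, Set.ncard_empty]

theorem fs_wF : fs wF * (1 - X ^ 2) = X ^ 3 := by
  ext m
  rw [mul_sub, mul_one, map_sub, coeff_mul_X_pow', coeff_X_pow]
  simp only [fs, coeff_mk, cnt_wF]
  split_ifs <;> first | omega | simp

theorem divisor_sum (P : ℕ → ℤ) (h0 : P 0 = 3) (h1 : P 1 = 0) (h2 : P 2 = 2)
    (hP : ∀ n, P (n + 3) = P (n + 1) + P n) (n : ℕ) (hn : 0 < n) :
    ∑ d ∈ n.divisors, (d : ℤ) * dm wF d = P n - 1 - (-1) ^ n := by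
  have hA : (mk P : ℤ⟦X⟧) * (1 - X ^ 2 - X ^ 3) = 3 - X ^ 2 := by
    ext m
    rw [mul_sub, mul_sub, mul_one, map_sub, map_sub, map_sub, coeff_mul_X_pow', coeff_mul_X_pow',
      coeff_X_pow, show (3 : ℤ⟦X⟧) = C 3 from rfl, coeff_C]
    simp only [coeff_mk]
    match m with
    | 0 => simp [h0]
    | 1 => simp [h1]
    | 2 => simp [h0, h2]
    | m + 3 => simp [hP]
  have hB : (mk (fun m => 1 + (-1) ^ m) : ℤ⟦X⟧) * (1 - X ^ 2) = 2 := by
    ext m
    rw [mul_sub, mul_one, map_sub, coeff_mul_X_pow', show (2 : ℤ⟦X⟧) = C 2 from rfl, coeff_C]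
    simp only [coeff_mk]
    match m with
    | 0 => simp
    | 1 => simp
    | m + 2 => simp [pow_add]
  have e1 := fs_wF
  have e2 := congrArg (d⁄dX ℤ) e1
  rw [Derivation.leibniz, map_sub, derivative_one, smul_eq_mul, smul_eq_mul, derivative_pow,
    derivative_pow, derivative_X] at e2
  have e3 := witt adm_wF
  have hq : (1 - X ^ 2 - X ^ 3 : ℤ⟦X⟧) * (1 - X ^ 2) ≠ 0 := fun e => by
    simpa using congrArg constantCoeff e
  have : Gs wF = mk P - mk (fun m => 1 + (-1) ^ m) - 1 := by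
    refine mul_right_cancel₀ hq ?_
    norm_num at e2
    linear_combination (1 - X ^ 2) ^ 2 * e3 + Gs wF * (1 - X ^ 2) * e1 + X * (1 - X ^ 2) * e2 +
      2 * X ^ 2 * e1 - (1 - X ^ 2) * hA + (1 - X ^ 2 - X ^ 3) * hB
  have e := congrArg (coeff n) this
  rw [Gs, map_sub, map_sub, coeff_mk, coeff_mk, coeff_mk, coeff_one, if_neg hn.ne'] at e
  rw [e]
  ring

theorem moebius_formula (P : ℕ → ℤ) (h0 : P 0 = 3) (h1 : P 1 = 0) (h2 : P 2 = 2)
    (hP : ∀ n, P (n + 3) = P (n + 1) + P n) (n : ℕ) (hn : 0 < n) :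
    (n : ℤ) * dm wF n = ∑ p ∈ n.divisorsAntidiagonal,
      ArithmeticFunction.moebius p.1 * (P p.2 - 1 - (-1) ^ p.2) := by
  have := (ArithmeticFunction.sum_eq_iff_sum_mul_moebius_eq (f := fun d => (d : ℤ) * dm wF d)
    (g := fun n => P n - 1 - (-1) ^ n)).1 (divisor_sum P h0 h1 h2 hP) n hn
  simpa using this.symm

end Vale.Agent.N029
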